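import Mathlib

/-!
P022-CFT (helper820), block [H90]: Hilbert 90 for a cyclic group acting on `R ⊗[K] M`,
`K` an infinite field, `R` a field over `K` (for instance a completion), `M / K` finite, and the
fixed algebras `(R ⊗[K] M)^H = R ⊗[K] M^H`.
-/

set_option linter.all false

open scoped TensorProduct

namespace Vale.Agent.P022.CF.H820

/-- partial norms `∏_{j < i} r^j u` -/
def pn {A : Type*} [CommRing A] (r : A →+* A) (u : A) (i : ℕ) : A :=
  ∏ j ∈ Finset.range i, (r^[j]) u

section pn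

variable {A : Type*} [CommRing A] (r : A →+* A) (u : A)

theorem pn_zero : pn r u 0 = 1 := by simp [pn]

theorem pn_succ (i : ℕ) : pn r u (i + 1) = u * r (pn r u i) := by
  rw [pn, Finset.prod_range_succ', pn, map_prod, mul_comm]
  congr 1
  refine Finset.prod_congr rfl fun j _ => ?_
  rw [Function.iterate_succ_apply']

theorem pn_mul (v : A) (i : ℕ) : pn r (u * v) i = pn r u i * pn r v i := by
  rw [pn, pn, pn, ← Finset.prod_mul_distrib]
  refine Finset.prod_congr rfl fun j _ => ?_
  rw [iterate_map_mul]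

theorem map_pn {B : Type*} [CommRing B] (r' : B →+* B) (f : A →+* B)
    (h : ∀ a, f (r a) = r' (f a)) (i : ℕ) : f (pn r u i) = pn r' (f u) i := by
  have h' : ∀ j a, f (r^[j] a) = r'^[j] (f a) := by
    intro j
    induction j with
    | zero => intro a; rfl
    | succ j ih => intro a; rw [Function.iterate_succ_apply, Function.iterate_succ_apply, ih, h]
  rw [pn, pn, map_prod]
  exact Finset.prod_congr rfl fun j _ => h' j u

end pn

section gen

variable {K M A : Type*} [Field K] [Infinite K] [Field M] [Algebra K M] [CommRing A]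
  [Algebra K A]

/-- **Hilbert 90, generic form**: `A` a commutative `K`-algebra with finitely many maximal ideals,
`M → A` equivariant, `ρ` of finite order on `M`. -/
theorem h90_gen [Finite (MaximalSpectrum A)] (f : M →ₐ[K] A) (ρ : M ≃ₐ[K] M)
    (hρ : IsOfFinOrder ρ) (r : A →+* A) (hr : ∀ m, r (f m) = f (ρ m)) {u : A}
    (hu : pn r u (orderOf ρ) = 1) : ∃ w : Aˣ, u * r w = w := by
  classical
  set n := orderOf ρ with hn
  have hn0 : 0 < n := hρ.orderOf_pos
  -- the linear map
  let L : M →ₗ[K] A :=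
    ∑ i ∈ Finset.range n, (LinearMap.mulLeft K (pn r u i)) ∘ₗ f.toLinearMap ∘ₗ
      (ρ ^ i).toLinearMap
  have hL : ∀ θ, L θ = ∑ i ∈ Finset.range n, pn r u i * f ((ρ ^ i) θ) := by
    intro θ
    simp only [L, LinearMap.sum_apply, LinearMap.comp_apply, LinearMap.mulLeft_apply]
    rfl
  -- the equation
  have key : ∀ θ, u * r (L θ) = L θ := by
    intro θ
    have e1 : u * r (L θ) = ∑ i ∈ Finset.range n, pn r u (i + 1) * f ((ρ ^ (i + 1)) θ) := by
      rw [hL, map_sum, Finset.mul_sum]
      refine Finset.sum_congr rfl fun i _ => ?_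
      rw [map_mul, hr, pn_succ, mul_assoc, pow_succ']
      rfl
    have e2 := Finset.sum_range_succ' (fun i => pn r u i * f ((ρ ^ i) θ)) n
    have e3 := Finset.sum_range_succ (fun i => pn r u i * f ((ρ ^ i) θ)) n
    rw [e1]
    rw [e3] at e2
    have e4 : pn r u n * f ((ρ ^ n) θ) = pn r u 0 * f ((ρ ^ 0) θ) := by
      rw [hu, pn_zero, hn, pow_orderOf_eq_one, pow_zero]
    rw [e4] at e2
    rw [hL]
    exact (add_right_cancel e2).symm
  -- maximal ideals
  let S : MaximalSpectrum A → Submodule K M := fun P =>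
    (P.asIdeal.restrictScalars K).comap L
  have hS : ∀ P, S P ≠ ⊤ := by
    intro P hP
    haveI := P.isMaximal
    letI : Field (A ⧸ P.asIdeal) := Ideal.Quotient.field P.asIdeal
    let q : A →+* A ⧸ P.asIdeal := Ideal.Quotient.mk P.asIdeal
    let φ : Fin n → (M →* A ⧸ P.asIdeal) := fun i =>
      ((q.comp f.toRingHom).comp ((ρ ^ (i : ℕ)) : M ≃ₐ[K] M).toRingEquiv.toRingHom).toMonoidHom
    have hφ : ∀ i θ, φ i θ = q (f ((ρ ^ (i : ℕ)) θ)) := fun i θ => rfl
    have hinj : Function.Injective φ := by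
      intro i j hij
      have h1 : ρ ^ (i : ℕ) = ρ ^ (j : ℕ) := by
        ext θ
        have h2 : φ i θ = φ j θ := by rw [hij]
        rw [hφ, hφ] at h2
        exact (q.comp f.toRingHom).injective h2
      exact Fin.ext (pow_injOn_Iio_orderOf i.2 j.2 h1)
    have hli := (linearIndependent_monoidHom M (A ⧸ P.asIdeal)).comp φ hinj
    rw [Fintype.linearIndependent_iff] at hli
    have h0 := hli (fun i => q (pn r u i)) (by
      funext θ
      have h3 : L θ ∈ P.asIdeal := by
        have h4 : θ ∈ S P := by rw [hP]; trivial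
        exact h4
      have h5 : q (L θ) = 0 := Ideal.Quotient.eq_zero_iff_mem.2 h3
      rw [hL, map_sum, ← Fin.sum_univ_eq_sum_range (fun i => q (pn r u i * f ((ρ ^ i) θ)))] at h5
      rw [Finset.sum_apply]
      simp only [Pi.smul_apply, Function.comp_apply, smul_eq_mul, Pi.zero_apply]
      rw [← h5]
      refine Finset.sum_congr rfl fun i _ => ?_
      rw [map_mul]
      rfl) ⟨0, hn0⟩
    rw [pn_zero, map_one] at h0
    exact one_ne_zero h0
  have hne : (⋃ P, (S P : Set M)) ≠ Set.univ := fun h => by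
    obtain ⟨P, hP⟩ := Subspace.exists_eq_top_of_iUnion_eq_univ h
    exact hS P hP
  obtain ⟨θ, hθ⟩ := (Set.ne_univ_iff_exists_notMem _).1 hne
  have hun : IsUnit (L θ) := by
    by_contra hc
    obtain ⟨P, hP, hmem⟩ := exists_max_ideal_of_mem_nonunits hc
    exact hθ (Set.mem_iUnion.2 ⟨⟨P, hP⟩, hmem⟩)
  exact ⟨hun.unit, key θ⟩

end gen

section tensor

variable {K M R : Type*} [Field K] [Field M] [Algebra K M] [CommRing R] [Algebra K R]

/-- the action of an automorphism of `M` on `R ⊗[K] M` -/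
noncomputable def act (R : Type*) [CommRing R] [Algebra K R] (ρ : M ≃ₐ[K] M) :
    R ⊗[K] M ≃ₐ[R] R ⊗[K] M :=
  Algebra.TensorProduct.congr (AlgEquiv.refl : R ≃ₐ[R] R) ρ

theorem act_tmul (ρ : M ≃ₐ[K] M) (a : R) (m : M) : act R ρ (a ⊗ₜ m) = a ⊗ₜ (ρ m) := rfl

theorem act_mul (ρ ρ' : M ≃ₐ[K] M) : act R (ρ * ρ') = act R ρ * act R ρ' := by
  refine AlgEquiv.ext fun x => ?_
  induction x using TensorProduct.induction_on with
  | zero => simp
  | tmul a m => rfl
  | add x y hx hy => rw [map_add, hx, hy, map_add]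

theorem act_one : act R (1 : M ≃ₐ[K] M) = 1 := by
  refine AlgEquiv.ext fun x => ?_
  induction x using TensorProduct.induction_on with
  | zero => simp
  | tmul a m => rfl
  | add x y hx hy => rw [map_add, hx, hy, map_add]

/-- the action as a homomorphism of groups -/
noncomputable def actHom (K M R : Type*) [Field K] [Field M] [Algebra K M] [CommRing R]
    [Algebra K R] : (M ≃ₐ[K] M) →* (R ⊗[K] M ≃ₐ[R] R ⊗[K] M) where
  toFun := act R
  map_one' := act_one
  map_mul' := act_mul

theorem act_pow (ρ : M ≃ₐ[K] M) (i : ℕ) : act R (ρ ^ i) = act R ρ ^ i :=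
  map_pow (actHom K M R) ρ i

/-- **[H90]** for `R ⊗[K] M`: if the product of the conjugates of `u` under `ρ` is one, then
`u * ρ w = w` for a unit `w`. -/
theorem h90 [Infinite K] [FiniteDimensional K M] [IsArtinianRing R] (ρ : M ≃ₐ[K] M)
    {u : R ⊗[K] M}
    (hu : pn (act R ρ : R ⊗[K] M →+* R ⊗[K] M) u (orderOf ρ) = 1) :
    ∃ w : (R ⊗[K] M)ˣ, u * act R ρ w = w := by
  haveI : IsArtinianRing (R ⊗[K] M) := IsArtinianRing.of_finite R (R ⊗[K] M)
  exact h90_gen (Algebra.TensorProduct.includeRight : M →ₐ[K] R ⊗[K] M) ρ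
    (isOfFinOrder_of_finite ρ) (act R ρ : R ⊗[K] M →+* R ⊗[K] M) (fun m => rfl) hu

/-- the product over a cyclic group -/
theorem prod_act [FiniteDimensional K M] {σ : M ≃ₐ[K] M} (hσ : ∀ g, g ∈ Subgroup.zpowers σ)
    (u : R ⊗[K] M) : ∏ g : M ≃ₐ[K] M, act R g u =
      pn (act R σ : R ⊗[K] M →+* R ⊗[K] M) u (orderOf σ) := by
  classical
  rw [pn, ← IsCyclic.image_range_orderOf hσ, Finset.prod_image]
  · refine Finset.prod_congr rfl fun i hi => ?_
    rw [act_pow]
    clear hσ hi
    induction i with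
    | zero => rfl
    | succ i ih =>
      rw [pow_succ', Function.iterate_succ_apply', AlgEquiv.mul_apply, ih]
      rfl
  · intro i hi j hj h
    exact pow_injOn_Iio_orderOf (Finset.mem_range.1 hi) (Finset.mem_range.1 hj) h

/-- **[H90]**, `M / K` cyclic, product over the whole group -/
theorem h90_prod [Infinite K] [FiniteDimensional K M] [IsArtinianRing R] {σ : M ≃ₐ[K] M}
    (hσ : ∀ g, g ∈ Subgroup.zpowers σ) {u : R ⊗[K] M}
    (hu : ∏ g : M ≃ₐ[K] M, act R g u = 1) : ∃ w : (R ⊗[K] M)ˣ, u * act R σ w = w :=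
  h90 σ (by rw [← prod_act hσ, hu])

end tensor

section fix

variable {K M R : Type*} [Field K] [Field M] [Algebra K M] [CommRing R] [Algebra K R]

/-- the inclusion `R ⊗[K] F → R ⊗[K] M`, `F` an intermediate field -/
noncomputable def inc (R : Type*) [CommRing R] [Algebra K R] (F : IntermediateField K M) :
    R ⊗[K] F →ₐ[R] R ⊗[K] M :=
  Algebra.TensorProduct.map (AlgHom.id R R) F.val

theorem inc_tmul (F : IntermediateField K M) (a : R) (m : F) :
    inc R F (a ⊗ₜ m) = a ⊗ₜ (m : M) := rfl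

theorem inc_injective (F : IntermediateField K M) : Function.Injective (inc R F) := by
  have h := Module.Flat.lTensor_preserves_injective_linearMap (M := R) F.val.toLinearMap
    F.val.toRingHom.injective
  exact h

/-- **fixed algebra**: an element of `R ⊗[K] M` fixed by all `ρ ∈ H` comes from `R ⊗[K] M^H` -/
theorem exists_inc_of_fix (H : Subgroup (M ≃ₐ[K] M)) {x : R ⊗[K] M}
    (hx : ∀ h ∈ H, act R h x = x) : ∃ y : R ⊗[K] (IntermediateField.fixedField H),
      inc R (IntermediateField.fixedField H) y = x := by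
  classical
  let b := Module.Basis.ofVectorSpace K R
  let e := TensorProduct.equivFinsuppOfBasisLeft (N := M) b
  have heq : ∀ (ρ : M ≃ₐ[K] M) (z : R ⊗[K] M) (i), e (act R ρ z) i = ρ (e z i) := by
    intro ρ z i
    induction z using TensorProduct.induction_on with
    | zero => simp
    | tmul a m =>
      rw [act_tmul]
      simp only [e, TensorProduct.equivFinsuppOfBasisLeft_apply_tmul_apply, map_smul]
    | add x y hx hy => rw [map_add, map_add, map_add, Finsupp.add_apply, Finsupp.add_apply, hx,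
        hy, map_add]
  have hmem : ∀ i, e x i ∈ IntermediateField.fixedField H := by
    intro i
    rw [IntermediateField.mem_fixedField_iff]
    intro h hh
    rw [← heq, hx h hh]
  refine ⟨∑ i ∈ (e x).support, b i ⊗ₜ (⟨e x i, hmem i⟩ : IntermediateField.fixedField H), ?_⟩
  rw [map_sum]
  simp only [inc_tmul]
  have h1 := TensorProduct.equivFinsuppOfBasisLeft_symm_apply (N := M) b (e x)
  have h2 : (TensorProduct.equivFinsuppOfBasisLeft (N := M) b).symm (e x) = x :=
    e.symm_apply_apply x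
  rw [h2] at h1
  exact h1.symm

/-- the same for the cyclic group of `ρ` -/
theorem exists_inc_of_fix_zpowers (ρ : M ≃ₐ[K] M) {x : R ⊗[K] M} (hx : act R ρ x = x) :
    ∃ y : R ⊗[K] (IntermediateField.fixedField (Subgroup.zpowers ρ)),
      inc R (IntermediateField.fixedField (Subgroup.zpowers ρ)) y = x := by
  refine exists_inc_of_fix _ fun h hh => ?_
  obtain ⟨k, rfl⟩ := Subgroup.mem_zpowers_iff.1 hh
  have h1 : act R (ρ ^ k) = act R ρ ^ k := map_zpow (actHom K M R) ρ k
  rw [h1]
  have h2 : act R ρ ∈ MulAction.stabilizer (R ⊗[K] M ≃ₐ[R] R ⊗[K] M) x := hx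
  exact Subgroup.zpow_mem _ h2 k

/-- elements of `R ⊗[K] M^H` are fixed -/
theorem act_inc (H : Subgroup (M ≃ₐ[K] M)) {h : M ≃ₐ[K] M} (hh : h ∈ H)
    (y : R ⊗[K] (IntermediateField.fixedField H)) :
    act R h (inc R (IntermediateField.fixedField H) y) =
      inc R (IntermediateField.fixedField H) y := by
  induction y using TensorProduct.induction_on with
  | zero => simp
  | tmul a m =>
    rw [inc_tmul, act_tmul]
    congr 1
    exact (IntermediateField.mem_fixedField_iff H (m : M)).1 m.2 h hh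
  | add x y hx hy => rw [map_add, map_add, hx, hy]

/-- units descend -/
theorem exists_unit_inc (H : Subgroup (M ≃ₐ[K] M)) (x : (R ⊗[K] M)ˣ)
    (hx : ∀ h ∈ H, act R h (x : R ⊗[K] M) = x) :
    ∃ y : (R ⊗[K] (IntermediateField.fixedField H))ˣ,
      inc R (IntermediateField.fixedField H) (y : R ⊗[K] (IntermediateField.fixedField H)) =
        (x : R ⊗[K] M) := by
  obtain ⟨y, hy⟩ := exists_inc_of_fix H hx
  obtain ⟨z, hz⟩ := exists_inc_of_fix (R := R) H (x := ((x⁻¹ : (R ⊗[K] M)ˣ) : R ⊗[K] M))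
    fun h hh => by
      have h1 : act R h (x : R ⊗[K] M) * act R h ((x⁻¹ : (R ⊗[K] M)ˣ) : R ⊗[K] M) = 1 := by
        rw [← map_mul, x.mul_inv, map_one]
      rw [hx h hh] at h1
      exact ((Units.inv_eq_of_mul_eq_one_right (u := x)) h1).symm
  have h1 : y * z = 1 := by
    apply inc_injective (R := R) (IntermediateField.fixedField H)
    rw [map_mul, hy, hz, x.mul_inv]
    exact ((inc R (IntermediateField.fixedField H)).toRingHom.map_one).symm
  exact ⟨⟨y, z, h1, (mul_comm z y).trans h1⟩, hy⟩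

/-- the same for the cyclic group of `ρ` -/
theorem exists_unit_inc_zpowers (ρ : M ≃ₐ[K] M) (x : (R ⊗[K] M)ˣ)
    (hx : act R ρ (x : R ⊗[K] M) = x) :
    ∃ y : (R ⊗[K] (IntermediateField.fixedField (Subgroup.zpowers ρ)))ˣ,
      inc R (IntermediateField.fixedField (Subgroup.zpowers ρ))
        (y : R ⊗[K] (IntermediateField.fixedField (Subgroup.zpowers ρ))) = (x : R ⊗[K] M) := by
  refine exists_unit_inc _ x fun h hh => ?_
  obtain ⟨k, rfl⟩ := Subgroup.mem_zpowers_iff.1 hh
  have h1 : act R (ρ ^ k) = act R ρ ^ k := map_zpow (actHom K M R) ρ k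
  rw [h1]
  have h2 : act R ρ ∈ MulAction.stabilizer (R ⊗[K] M ≃ₐ[R] R ⊗[K] M) (x : R ⊗[K] M) := hx
  exact Subgroup.zpow_mem _ h2 k

end fix

end Vale.Agent.P022.CF.H820
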